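import Vale.Agent.P296.Wire
import Vale.Agent.P296.Ample.Embedding
import Vale.Agent.P296.Ample.Span
import Vale.Agent.P296.Ample.Jet.Families

/-!
# P296: Griffiths' positivity conjecture fails

An ample vector bundle of rank seven on a ruled surface over an elliptic curve without a smooth
Hermitian metric of strictly Griffiths positive curvature.
-/

namespace Vale.Agent.Results.P296.GriffithsCounterexample

open Vale.Agent.P296

theorem result : Vale.Agent.P296.GriffithsFails :=
  Assembly.griffithsFails_of_targets
    ⟨Complex.I, by simp, fun q hq => by
      have hI : 0 < Complex.I.im := by simp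
      obtain ⟨ι, hι, F, hQ, hG⟩ := Ample.Jet.exists_families (τ := Complex.I) hI
      exact Ample.exists_embeds_of_spans hI (Ample.spans_of_form F hQ hG) hq⟩

end Vale.Agent.Results.P296.GriffithsCounterexample
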